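import Mathlib

/-!
# P113 (helper936): energy uniqueness on the torus
-/

open MeasureTheory Set

namespace Vale.Agent.P113.H936

/-- points of `ℝ³`; functions on the torus are `ℤ³`-periodic functions on it -/
abbrev E3 := Fin 3 → ℝ

/-- the closed unit cube -/
def cube : Set E3 := Icc 0 1

theorem insertNth_cont (j : Fin 3) :
    Continuous fun z : ℝ × (Fin 2 → ℝ) => (j.insertNth (α := fun _ => ℝ) z.1 z.2 : E3) := by
  refine continuous_pi fun i => ?_
  rcases Fin.eq_self_or_eq_succAbove j i with h | ⟨k, h⟩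
  · subst h
    simpa using continuous_fst
  · subst h
    simp only [Fin.insertNth_apply_succAbove]
    exact (continuous_apply k).comp continuous_snd

/-- the integral over the cube of a partial derivative of a periodic function vanishes -/
theorem integral_partial_eq_zero (j : Fin 3) (g g' : E3 → ℝ) (hg' : Continuous g')
    (hd : ∀ x, HasDerivAt (fun s => g (Function.update x j s)) (g' x) (x j))
    (hper : ∀ x, g (Function.update x j (x j + 1)) = g x) :
    ∫ x in cube, g' x = 0 := by
  have hmp := volume_preserving_piFinSuccAbove (fun _ : Fin 3 => ℝ) j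
  have hcube : cube = (MeasurableEquiv.piFinSuccAbove (fun _ : Fin 3 => ℝ) j) ⁻¹'
      (Icc (0 : ℝ) 1 ×ˢ Icc (0 : Fin 2 → ℝ) 1) := by
    ext x
    simp only [cube, mem_Icc, mem_preimage, mem_prod, MeasurableEquiv.piFinSuccAbove_apply,
      Pi.le_def, Fin.insertNthEquiv]
    simp only [Pi.zero_apply, Pi.one_apply, Fin.forall_iff_succAbove j]
    simp [Fin.removeNth]
    tauto
  have h1 : ∫ x in cube, g' x = ∫ z in (Icc (0 : ℝ) 1 ×ˢ Icc (0 : Fin 2 → ℝ) 1),
      g' (j.insertNth (α := fun _ => ℝ) z.1 z.2) := by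
    rw [hcube, ← hmp.setIntegral_preimage_emb (MeasurableEquiv.measurableEmbedding _)]
    refine setIntegral_congr_fun ((MeasurableEquiv.piFinSuccAbove (fun _ : Fin 3 => ℝ) j).measurable
      (measurableSet_Icc.prod measurableSet_Icc)) fun x _ => ?_
    congr 1
    exact ((Fin.insertNthEquiv (fun _ => ℝ) j).apply_symm_apply x).symm
  have hcont : Continuous fun z : ℝ × (Fin 2 → ℝ) =>
      g' (j.insertNth (α := fun _ => ℝ) z.1 z.2) := hg'.comp (insertNth_cont j)
  have hint : IntegrableOn (fun z : (Fin 2 → ℝ) × ℝ => g' (j.insertNth (α := fun _ => ℝ) z.2 z.1))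
      (Icc (0 : Fin 2 → ℝ) 1 ×ˢ Icc (0 : ℝ) 1) (volume.prod volume) := by
    refine ContinuousOn.integrableOn_compact (isCompact_Icc.prod isCompact_Icc) ?_
    exact (hcont.comp continuous_swap).continuousOn
  rw [h1, Measure.volume_eq_prod, ← setIntegral_prod_swap]
  change ∫ z in (Icc (0 : Fin 2 → ℝ) 1 ×ˢ Icc (0 : ℝ) 1),
      g' (j.insertNth (α := fun _ => ℝ) z.2 z.1) ∂volume.prod volume = 0
  rw [setIntegral_prod _ hint]
  refine (integral_congr_ae (Filter.Eventually.of_forall fun y => ?_)).trans (integral_zero _ _)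
  change ∫ s in Icc (0 : ℝ) 1, g' (j.insertNth (α := fun _ => ℝ) s y) = 0
  rw [integral_Icc_eq_integral_Ioc, ← intervalIntegral.integral_of_le zero_le_one]
  rw [intervalIntegral.integral_eq_sub_of_hasDerivAt
    (f := fun s => g (j.insertNth (α := fun _ => ℝ) s y))]
  · have h := hper (j.insertNth (α := fun _ => ℝ) 0 y)
    simp only [Fin.insertNth_apply_same, Fin.update_insertNth, zero_add] at h
    rw [h, sub_self]
  · intro s _
    have h := hd (j.insertNth (α := fun _ => ℝ) s y)
    simpa only [Fin.insertNth_apply_same, Fin.update_insertNth] using h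
  · apply Continuous.intervalIntegrable
    exact hcont.comp (continuous_id.prodMk continuous_const)

theorem integrable_cube {g : E3 → ℝ} (hg : Continuous g) : IntegrableOn g cube volume :=
  hg.continuousOn.integrableOn_compact isCompact_Icc

theorem measurableSet_cube : MeasurableSet cube := measurableSet_Icc

/-- the energy inequality at a fixed time -/
theorem energy_ineq {ν K : ℝ} (hν : 0 ≤ ν) (u w wt : E3 → E3) (ux wx vx wxx : Fin 3 → E3 → E3)
    (q : E3 → ℝ) (qx : Fin 3 → E3 → ℝ)
    (cu : ∀ i, Continuous fun x => u x i) (cw : ∀ i, Continuous fun x => w x i)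
    (cux : ∀ j i, Continuous fun x => ux j x i) (cwx : ∀ j i, Continuous fun x => wx j x i)
    (cwxx : ∀ j i, Continuous fun x => wxx j x i)
    (cq : Continuous q) (cqx : ∀ j, Continuous (qx j))
    (cwt : ∀ i, Continuous fun x => wt x i)
    (du : ∀ x i j, HasDerivAt (fun s => u (Function.update x j s) i) (ux j x i) (x j))
    (dw : ∀ x i j, HasDerivAt (fun s => w (Function.update x j s) i) (wx j x i) (x j))
    (dwx : ∀ x i j, HasDerivAt (fun s => wx j (Function.update x j s) i) (wxx j x i) (x j))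
    (dq : ∀ x j, HasDerivAt (fun s => q (Function.update x j s)) (qx j x) (x j))
    (pu : ∀ x i j, u (Function.update x j (x j + 1)) i = u x i)
    (pw : ∀ x i j, w (Function.update x j (x j + 1)) i = w x i)
    (pwx : ∀ x i j, wx j (Function.update x j (x j + 1)) i = wx j x i)
    (pq : ∀ x j, q (Function.update x j (x j + 1)) = q x)
    (divu : ∀ x, ∑ j, ux j x j = 0) (divw : ∀ x, ∑ j, wx j x j = 0)
    (eq : ∀ x i, wt x i + ∑ j, u x j * wx j x i + ∑ j, w x j * vx j x i =
      - qx i x + ν * ∑ j, wxx j x i)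
    (hK : ∀ x ∈ cube, ∀ j i, |vx j x i| ≤ K) :
    ∫ x in cube, ∑ i, 2 * (w x i * wt x i) ≤ (6 * K) * ∫ x in cube, ∑ i, w x i ^ 2 := by
  have hG : ∀ j : Fin 3, ∫ x in cube, (-(ux j x j * ∑ i, w x i ^ 2)
      - u x j * ∑ i, 2 * (w x i * wx j x i) - 2 * (wx j x j * q x) - 2 * (w x j * qx j x)
      + 2 * ν * ∑ i, (wx j x i * wx j x i + w x i * wxx j x i)) = 0 := by
    intro j
    refine integral_partial_eq_zero j (fun x => -(u x j * ∑ i, w x i ^ 2) - 2 * (w x j * q x)
      + 2 * ν * ∑ i, w x i * wx j x i) _ ?_ ?_ ?_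
    · have h1 := cu j
      have h2 := cw j
      have h3 := cux j j
      have h4 := cwx j j
      have h5 := cqx j
      fun_prop
    · intro x
      have hu := du x j j
      have hq := dq x j
      have hw := fun i => dw x i j
      have hwx := fun i => dwx x i j
      have e1 : HasDerivAt (fun s => ∑ i, w (Function.update x j s) i ^ 2)
          (∑ i, 2 * (w x i * wx j x i)) (x j) := by
        refine HasDerivAt.fun_sum fun i _ => ?_
        have := (hw i).pow 2
        refine this.congr_deriv ?_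
        simp only [Function.update_eq_self]
        ring
      have e2 : HasDerivAt (fun s => ∑ i, w (Function.update x j s) i *
          wx j (Function.update x j s) i)
          (∑ i, (wx j x i * wx j x i + w x i * wxx j x i)) (x j) := by
        refine HasDerivAt.fun_sum fun i _ => ?_
        refine ((hw i).mul (hwx i)).congr_deriv ?_
        simp only [Function.update_eq_self]
      have e3 := (((hu.mul e1).neg.sub (((hw j).mul hq).const_mul 2)).add (e2.const_mul (2 * ν)))
      refine e3.congr_deriv ?_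
      simp only [Function.update_eq_self]
      ring
    · intro x
      simp only [pu, pw, pwx, pq]
  have hGint : ∀ j : Fin 3, IntegrableOn (fun x => (-(ux j x j * ∑ i, w x i ^ 2)
      - u x j * ∑ i, 2 * (w x i * wx j x i) - 2 * (wx j x j * q x) - 2 * (w x j * qx j x)
      + 2 * ν * ∑ i, (wx j x i * wx j x i + w x i * wxx j x i))) cube volume := by
    intro j
    apply integrable_cube
    have h1 := cu j
    have h2 := cw j
    have h3 := cux j j
    have h4 := cwx j j
    have h5 := cqx j
    fun_prop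
  have h0 : ∫ x in cube, ∑ j : Fin 3, (-(ux j x j * ∑ i, w x i ^ 2)
      - u x j * ∑ i, 2 * (w x i * wx j x i) - 2 * (wx j x j * q x) - 2 * (w x j * qx j x)
      + 2 * ν * ∑ i, (wx j x i * wx j x i + w x i * wxx j x i)) = 0 := by
    rw [integral_finsetSum _ fun j _ => hGint j]
    exact Finset.sum_eq_zero fun j _ => hG j
  have hWint : IntegrableOn (fun x => ∑ i, 2 * (w x i * wt x i)) cube volume := by
    apply integrable_cube
    fun_prop
  have hsumint : IntegrableOn (fun x => ∑ j : Fin 3, (-(ux j x j * ∑ i, w x i ^ 2)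
      - u x j * ∑ i, 2 * (w x i * wx j x i) - 2 * (wx j x j * q x) - 2 * (w x j * qx j x)
      + 2 * ν * ∑ i, (wx j x i * wx j x i + w x i * wxx j x i))) cube volume :=
    integrable_finsetSum _ fun j _ => hGint j
  have hEint : IntegrableOn (fun x => ∑ i, w x i ^ 2) cube volume := by
    apply integrable_cube
    fun_prop
  have hle : ∫ x in cube, (∑ i, 2 * (w x i * wt x i)) =
      ∫ x in cube, ((∑ i, 2 * (w x i * wt x i)) - ∑ j : Fin 3, (-(ux j x j * ∑ i, w x i ^ 2)
      - u x j * ∑ i, 2 * (w x i * wx j x i) - 2 * (wx j x j * q x) - 2 * (w x j * qx j x)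
      + 2 * ν * ∑ i, (wx j x i * wx j x i + w x i * wxx j x i))) := by
    rw [integral_sub hWint hsumint, h0, sub_zero]
  rw [hle, ← integral_const_mul]
  refine setIntegral_mono_on (hWint.sub hsumint) (hEint.const_mul _) measurableSet_cube
    fun x hx => ?_
  have h1 := divu x
  have h2 := divw x
  have key : ∀ j i, -(2 * (w x j * w x i * vx j x i)) ≤ K * (w x j ^ 2 + w x i ^ 2) := by
    intro j i
    have hk := hK x hx j i
    have h3 : |w x j * w x i| ≤ (w x j ^ 2 + w x i ^ 2) / 2 := by
      rw [abs_le]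
      constructor <;> nlinarith [sq_nonneg (w x j + w x i), sq_nonneg (w x j - w x i)]
    have h4 : -(w x j * w x i * vx j x i) ≤ |w x j * w x i| * |vx j x i| := by
      rw [← abs_mul]
      exact neg_le_abs _
    have h5 : |w x j * w x i| * |vx j x i| ≤ (w x j ^ 2 + w x i ^ 2) / 2 * K :=
      mul_le_mul h3 hk (abs_nonneg _) (by positivity)
    linarith
  have hid : (∑ i, 2 * (w x i * wt x i)) - ∑ j : Fin 3, (-(ux j x j * ∑ i, w x i ^ 2)
      - u x j * ∑ i, 2 * (w x i * wx j x i) - 2 * (wx j x j * q x) - 2 * (w x j * qx j x)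
      + 2 * ν * ∑ i, (wx j x i * wx j x i + w x i * wxx j x i)) =
      ∑ j, ∑ i, (-(2 * (w x j * w x i * vx j x i)) - 2 * (ν * wx j x i ^ 2)) := by
    have e0 := eq x 0
    have e1 := eq x 1
    have e2 := eq x 2
    simp only [Fin.sum_univ_three] at h1 h2 e0 e1 e2 ⊢
    linear_combination (2 * w x 0) * e0 + (2 * w x 1) * e1 + (2 * w x 2) * e2 +
      (w x 0 ^ 2 + w x 1 ^ 2 + w x 2 ^ 2) * h1 + 2 * q x * h2
  rw [hid]
  have hle2 : ∑ j : Fin 3, ∑ i : Fin 3, (-(2 * (w x j * w x i * vx j x i)) -
      2 * (ν * wx j x i ^ 2)) ≤ ∑ j : Fin 3, ∑ i : Fin 3, K * (w x j ^ 2 + w x i ^ 2) := by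
    refine Finset.sum_le_sum fun j _ => Finset.sum_le_sum fun i _ => ?_
    have h6 : 0 ≤ ν * wx j x i ^ 2 := by positivity
    linarith [key j i]
  refine hle2.trans (le_of_eq ?_)
  simp only [Fin.sum_univ_three]
  ring

/-- reduction of a point to the cube -/
theorem periodic_reduce (g : E3 → ℝ) (hper : ∀ x j, g (Function.update x j (x j + 1)) = g x)
    (x : E3) : g (fun i => Int.fract (x i)) = g x := by
  have h : ∀ (y : E3) (j : Fin 3), g (Function.update y j (Int.fract (y j))) = g y := by
    intro y j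
    have hp : Function.Periodic (fun s : ℝ => g (Function.update y j s)) 1 := by
      intro s
      have := hper (Function.update y j s) j
      simpa only [Function.update_self, Function.update_idem] using this
    have h1 := hp.sub_zsmul_eq (x := y j) ⌊y j⌋
    simp only [zsmul_eq_mul, mul_one, Function.update_eq_self] at h1
    rw [← h1]
    rfl
  have h2 : (fun i => Int.fract (x i)) = Function.update (Function.update
      (Function.update x 0 (Int.fract (x 0))) 1 (Int.fract (x 1))) 2 (Int.fract (x 2)) := by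
    funext i
    fin_cases i <;> simp
  rw [h2]
  have a1 := h x 0
  have a2 := h (Function.update x 0 (Int.fract (x 0))) 1
  have a3 := h (Function.update (Function.update x 0 (Int.fract (x 0))) 1 (Int.fract (x 1))) 2
  have b2 : Function.update x 0 (Int.fract (x 0)) 1 = x 1 := by simp
  have b3 : Function.update (Function.update x 0 (Int.fract (x 0))) 1 (Int.fract (x 1)) 2 = x 2 := by
    simp
  rw [b2] at a2
  rw [b3] at a3
  rw [a3, a2, a1]

theorem fract_mem_cube (x : E3) : (fun i => Int.fract (x i)) ∈ cube :=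
  ⟨fun _ => Int.fract_nonneg _, fun _ => (Int.fract_lt_one _).le⟩

/-- a nonnegative continuous function with vanishing integral over the cube vanishes on the cube -/
theorem eq_zero_of_integral {g : E3 → ℝ} (hg : Continuous g) (h0 : ∀ x, 0 ≤ g x)
    (hi : ∫ x in cube, g x = 0) : ∀ x ∈ cube, g x = 0 := by
  have h1 : g =ᵐ[volume.restrict cube] 0 :=
    (setIntegral_eq_zero_iff_of_nonneg_ae (Filter.Eventually.of_forall h0)
      (integrable_cube hg)).1 hi
  have h2 : EqOn g 0 cube := by
    refine Measure.eqOn_of_ae_eq h1 hg.continuousOn continuousOn_const ?_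
    have h3 : cube = Set.pi univ fun _ : Fin 3 => Icc (0 : ℝ) 1 := by
      ext x
      simp [cube, Pi.le_def]
      
    rw [h3, interior_pi_set finite_univ, closure_pi_set]
    simp
  exact h2

/-- raw form of a classical solution on `[0,T]` -/
structure RawSol (ν T : ℝ) (f : ℝ → E3 → E3) (u : ℝ → E3 → E3) (p : ℝ → E3 → ℝ)
    (ut : ℝ → E3 → E3) (ux : Fin 3 → ℝ → E3 → E3) (uxx : Fin 3 → ℝ → E3 → E3)
    (px : Fin 3 → ℝ → E3 → ℝ) : Prop where
  cu : ∀ i, ContinuousOn (fun z : ℝ × E3 => u z.1 z.2 i) (Icc 0 T ×ˢ univ)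
  cut : ∀ i, ContinuousOn (fun z : ℝ × E3 => ut z.1 z.2 i) (Icc 0 T ×ˢ univ)
  cux : ∀ j i, ContinuousOn (fun z : ℝ × E3 => ux j z.1 z.2 i) (Icc 0 T ×ˢ univ)
  cuxx : ∀ j i, ContinuousOn (fun z : ℝ × E3 => uxx j z.1 z.2 i) (Icc 0 T ×ˢ univ)
  cp : ContinuousOn (fun z : ℝ × E3 => p z.1 z.2) (Icc 0 T ×ˢ univ)
  cpx : ∀ j, ContinuousOn (fun z : ℝ × E3 => px j z.1 z.2) (Icc 0 T ×ˢ univ)
  dt : ∀ t ∈ Icc 0 T, ∀ x i, HasDerivWithinAt (fun s => u s x i) (ut t x i) (Icc 0 T) t
  dx : ∀ t ∈ Icc 0 T, ∀ x i j,
    HasDerivAt (fun s => u t (Function.update x j s) i) (ux j t x i) (x j)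
  dxx : ∀ t ∈ Icc 0 T, ∀ x i j,
    HasDerivAt (fun s => ux j t (Function.update x j s) i) (uxx j t x i) (x j)
  dp : ∀ t ∈ Icc 0 T, ∀ x j, HasDerivAt (fun s => p t (Function.update x j s)) (px j t x) (x j)
  pu : ∀ t ∈ Icc 0 T, ∀ x i j, u t (Function.update x j (x j + 1)) i = u t x i
  pp : ∀ t ∈ Icc 0 T, ∀ x j, p t (Function.update x j (x j + 1)) = p t x
  mean : ∀ t ∈ Icc 0 T, ∫ x in cube, p t x = 0
  div : ∀ t ∈ Icc 0 T, ∀ x, ∑ j, ux j t x j = 0
  eq : ∀ t ∈ Icc 0 T, ∀ x i, ut t x i + ∑ j, u t x j * ux j t x i =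
    - px i t x + ν * ∑ j, uxx j t x i + f t x i
  init : ∀ x, u 0 x = 0

theorem slice_cont {T : ℝ} {g : ℝ → E3 → ℝ}
    (hg : ContinuousOn (fun z : ℝ × E3 => g z.1 z.2) (Icc 0 T ×ˢ univ)) {t : ℝ}
    (ht : t ∈ Icc 0 T) : Continuous (g t) := by
  rw [← continuousOn_univ]
  exact hg.comp (f := fun x : E3 => (t, x)) (by fun_prop) fun x _ => ⟨ht, mem_univ _⟩

theorem slice_cont_time {T : ℝ} {g : ℝ → E3 → ℝ}
    (hg : ContinuousOn (fun z : ℝ × E3 => g z.1 z.2) (Icc 0 T ×ˢ univ)) (x : E3) :
    ContinuousOn (fun t => g t x) (Icc 0 T) :=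
  hg.comp (f := fun t : ℝ => (t, x)) (by fun_prop) fun t ht => ⟨ht, mem_univ _⟩

theorem bound_cube {T : ℝ} {g : ℝ → E3 → ℝ}
    (hg : ContinuousOn (fun z : ℝ × E3 => g z.1 z.2) (Icc 0 T ×ˢ univ)) :
    ∃ M, ∀ t ∈ Icc 0 T, ∀ x ∈ cube, |g t x| ≤ M := by
  have hc : IsCompact (Icc 0 T ×ˢ cube) := isCompact_Icc.prod isCompact_Icc
  obtain ⟨M, hM⟩ := hc.exists_bound_of_continuousOn (f := fun z : ℝ × E3 => g z.1 z.2)
    (hg.mono (prod_mono_right (subset_univ _)))
  exact ⟨M, fun t ht x hx => hM (t, x) ⟨ht, hx⟩⟩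

theorem partial_unique {g : E3 → ℝ} {g' : E3 → ℝ} {j : Fin 3}
    (hd : ∀ x, HasDerivAt (fun s => g (Function.update x j s)) (g' x) (x j))
    (hper : ∀ x, g (Function.update x j (x j + 1)) = g x) (x : E3) :
    g' (Function.update x j (x j + 1)) = g' x := by
  have h1 := hd (Function.update x j (x j + 1))
  simp only [Function.update_idem, Function.update_self] at h1
  have h2 : HasDerivAt (fun s => g (Function.update x j (s - 1))) (g' x) (x j + 1) := by
    have h3 : HasDerivAt (fun s : ℝ => s - 1) 1 (x j + 1) := (hasDerivAt_id _).sub_const _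
    have h4 : HasDerivAt (fun s => g (Function.update x j s)) (g' x) (x j + 1 - 1) := by
      rw [add_sub_cancel_right]
      exact hd x
    simpa using! h4.scomp (x j + 1) h3
  have h5 : (fun s => g (Function.update x j (s - 1))) = fun s => g (Function.update x j s) := by
    funext s
    have := hper (Function.update x j (s - 1))
    simp only [Function.update_idem, Function.update_self, sub_add_cancel] at this
    exact this.symm
  rw [h5] at h2
  exact h1.unique h2

/-- uniqueness of the velocity of classical solutions on `[0,T]` -/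
theorem RawSol.velocity_unique {ν T : ℝ} (hν : 0 ≤ ν) {f : ℝ → E3 → E3}
    {u : ℝ → E3 → E3} {p : ℝ → E3 → ℝ} {ut : ℝ → E3 → E3} {ux uxx : Fin 3 → ℝ → E3 → E3}
    {px : Fin 3 → ℝ → E3 → ℝ} (hu : RawSol ν T f u p ut ux uxx px)
    {v : ℝ → E3 → E3} {q : ℝ → E3 → ℝ} {vt : ℝ → E3 → E3} {vx vxx : Fin 3 → ℝ → E3 → E3}
    {qx : Fin 3 → ℝ → E3 → ℝ} (hv : RawSol ν T f v q vt vx vxx qx) :
    ∀ t ∈ Icc 0 T, ∀ x, u t x = v t x := by
  -- the difference and its derivatives
  have cW : ContinuousOn (fun z : ℝ × E3 => ∑ i, (u z.1 z.2 i - v z.1 z.2 i) ^ 2)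
      (Icc 0 T ×ˢ univ) :=
    continuousOn_finsetSum _ fun i _ => ((hu.cu i).sub (hv.cu i)).pow 2
  have cW' : ContinuousOn (fun z : ℝ × E3 => ∑ i, 2 * ((u z.1 z.2 i - v z.1 z.2 i) *
      (ut z.1 z.2 i - vt z.1 z.2 i))) (Icc 0 T ×ˢ univ) :=
    continuousOn_finsetSum _ fun i _ => continuousOn_const.mul
      (((hu.cu i).sub (hv.cu i)).mul ((hu.cut i).sub (hv.cut i)))
  let W : ℝ → E3 → ℝ := fun t x => ∑ i, (u t x i - v t x i) ^ 2
  let W' : ℝ → E3 → ℝ := fun t x => ∑ i, 2 * ((u t x i - v t x i) * (ut t x i - vt t x i))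
  obtain ⟨M, hM⟩ := bound_cube (g := W) cW
  obtain ⟨M', hM'⟩ := bound_cube (g := W') cW'
  have hKji : ∀ j i, ∃ K, ∀ t ∈ Icc 0 T, ∀ x ∈ cube, |vx j t x i| ≤ K := fun j i =>
    bound_cube (g := fun t x => vx j t x i) (hv.cux j i)
  choose K hK using hKji
  let K0 : ℝ := ∑ j, ∑ i, |K j i|
  have hK0 : ∀ t ∈ Icc 0 T, ∀ x ∈ cube, ∀ j i, |vx j t x i| ≤ K0 := by
    intro t ht x hx j i
    refine (hK j i t ht x hx).trans ((le_abs_self _).trans ?_)
    refine (Finset.single_le_sum (f := fun i => |K j i|) (fun i _ => abs_nonneg _)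
      (Finset.mem_univ i)).trans ?_
    exact Finset.single_le_sum (f := fun j => ∑ i, |K j i|)
      (fun j _ => Finset.sum_nonneg fun i _ => abs_nonneg _) (Finset.mem_univ j)
  have hcubefin : volume cube ≠ ⊤ := isCompact_Icc.measure_lt_top.ne
  let E : ℝ → ℝ := fun t => ∫ x in cube, W t x
  have hEcont : ContinuousOn E (Icc 0 T) := by
    refine continuousOn_of_dominated (bound := fun _ => M)
      (fun t ht => (slice_cont (g := W) cW ht).aestronglyMeasurable)
      (fun t ht => ?_) (integrableOn_const hcubefin)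
      (Filter.Eventually.of_forall fun x => slice_cont_time (g := W) cW x)
    exact (ae_restrict_iff' measurableSet_cube).2
      (Filter.Eventually.of_forall fun x hx => hM t ht x hx)
  have hEderiv : ∀ t ∈ Ioo 0 T, HasDerivAt E (∫ x in cube, W' t x) t := by
    intro t ht
    have hnhds : Ioo 0 T ∈ nhds t := isOpen_Ioo.mem_nhds ht
    refine (hasDerivAt_integral_of_dominated_loc_of_deriv_le (bound := fun _ => M') hnhds
      ?_ ?_ ?_ ?_ (integrableOn_const hcubefin) ?_).2
    · filter_upwards [hnhds] with s hs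
      exact (slice_cont (g := W) cW (Ioo_subset_Icc_self hs)).aestronglyMeasurable
    · exact integrable_cube (slice_cont (g := W) cW (Ioo_subset_Icc_self ht))
    · exact (slice_cont (g := W') cW' (Ioo_subset_Icc_self ht)).aestronglyMeasurable
    · exact (ae_restrict_iff' measurableSet_cube).2
        (Filter.Eventually.of_forall fun x hx s hs => hM' s (Ioo_subset_Icc_self hs) x hx)
    · refine Filter.Eventually.of_forall fun x s hs => ?_
      refine HasDerivAt.fun_sum fun i _ => ?_
      have h1 := (hu.dt s (Ioo_subset_Icc_self hs) x i).hasDerivAt (Icc_mem_nhds hs.1 hs.2)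
      have h2 := (hv.dt s (Ioo_subset_Icc_self hs) x i).hasDerivAt (Icc_mem_nhds hs.1 hs.2)
      refine ((h1.sub h2).pow 2).congr_deriv ?_
      simp only [Pi.sub_apply]
      ring
  have hineq : ∀ t ∈ Ioo 0 T, ∫ x in cube, W' t x ≤ (6 * K0) * E t := by
    intro t ht'
    have ht := Ioo_subset_Icc_self ht'
    refine energy_ineq (ν := ν) hν (u t) (fun x => u t x - v t x) (fun x => ut t x - vt t x)
      (fun j => ux j t) (fun j x => ux j t x - vx j t x) (fun j => vx j t)
      (fun j x => uxx j t x - vxx j t x) (fun x => p t x - q t x) (fun j x => px j t x - qx j t x)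
      (fun i => slice_cont (g := fun t x => u t x i) (hu.cu i) ht)
      (fun i => (slice_cont (g := fun t x => u t x i) (hu.cu i) ht).sub
        (slice_cont (g := fun t x => v t x i) (hv.cu i) ht))
      (fun j i => slice_cont (g := fun t x => ux j t x i) (hu.cux j i) ht)
      (fun j i => (slice_cont (g := fun t x => ux j t x i) (hu.cux j i) ht).sub
        (slice_cont (g := fun t x => vx j t x i) (hv.cux j i) ht))
      (fun j i => (slice_cont (g := fun t x => uxx j t x i) (hu.cuxx j i) ht).sub
        (slice_cont (g := fun t x => vxx j t x i) (hv.cuxx j i) ht))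
      ((slice_cont (g := p) hu.cp ht).sub (slice_cont (g := q) hv.cp ht))
      (fun j => (slice_cont (g := px j) (hu.cpx j) ht).sub (slice_cont (g := qx j) (hv.cpx j) ht))
      (fun i => (slice_cont (g := fun t x => ut t x i) (hu.cut i) ht).sub
        (slice_cont (g := fun t x => vt t x i) (hv.cut i) ht))
      (fun x i j => hu.dx t ht x i j) (fun x i j => (hu.dx t ht x i j).sub (hv.dx t ht x i j))
      (fun x i j => (hu.dxx t ht x i j).sub (hv.dxx t ht x i j))
      (fun x j => (hu.dp t ht x j).sub (hv.dp t ht x j))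
      (fun x i j => hu.pu t ht x i j)
      (fun x i j => by simp only [Pi.sub_apply, hu.pu t ht x i j, hv.pu t ht x i j])
      (fun x i j => ?_)
      (fun x j => by rw [hu.pp t ht x j, hv.pp t ht x j])
      (hu.div t ht) (fun x => ?_) (fun x i => ?_) (fun x hx j i => hK0 t ht x hx j i)
    · have h1 := partial_unique (g := fun x => u t x i) (g' := fun x => ux j t x i) (j := j)
        (fun x => hu.dx t ht x i j) (fun x => hu.pu t ht x i j) x
      have h2 := partial_unique (g := fun x => v t x i) (g' := fun x => vx j t x i) (j := j)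
        (fun x => hv.dx t ht x i j) (fun x => hv.pu t ht x i j) x
      simp only [Pi.sub_apply]
      rw [h1, h2]
    · have h1 := hu.div t ht x
      have h2 := hv.div t ht x
      simp only [Pi.sub_apply, Finset.sum_sub_distrib, h1, h2, sub_zero]
    · have h1 := hu.eq t ht x i
      have h2 := hv.eq t ht x i
      simp only [Pi.sub_apply, Fin.sum_univ_three] at h1 h2 ⊢
      linear_combination h1 - h2
  -- Gronwall
  have hE0 : 0 ≤ T → E 0 = 0 := by
    intro _
    change ∫ x in cube, W 0 x = 0
    have : ∀ x, W 0 x = 0 := fun x => by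
      simp only [W, hu.init, hv.init, sub_self]
      simp
    simp only [this, integral_zero]
  have hEnonneg : ∀ t, 0 ≤ E t := fun t =>
    integral_nonneg fun x => Finset.sum_nonneg fun i _ => sq_nonneg _
  have hanti : AntitoneOn (fun t => Real.exp (-(6 * K0) * t) * E t) (Icc 0 T) := by
    have hder : ∀ t ∈ Ioo 0 T, HasDerivAt (fun t => Real.exp (-(6 * K0) * t) * E t)
        (Real.exp (-(6 * K0) * t) * (-(6 * K0)) * E t +
          Real.exp (-(6 * K0) * t) * ∫ x in cube, W' t x) t := by
      intro t ht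
      have h1 : HasDerivAt (fun t : ℝ => -(6 * K0) * t) (-(6 * K0)) t := by
        simpa using (hasDerivAt_id t).const_mul (-(6 * K0))
      exact h1.exp.mul (hEderiv t ht)
    refine antitoneOn_of_deriv_nonpos (convex_Icc 0 T) ?_ ?_ ?_
    · exact ContinuousOn.mul (by fun_prop) hEcont
    · rw [interior_Icc]
      exact fun t ht => (hder t ht).differentiableAt.differentiableWithinAt
    · rw [interior_Icc]
      intro t ht
      rw [(hder t ht).deriv]
      have h1 := hineq t ht
      have h2 := Real.exp_pos (-(6 * K0) * t)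
      nlinarith
  intro t ht x
  have hT : 0 ≤ T := ht.1.trans ht.2
  have hEt : E t = 0 := by
    have h1 := hanti (left_mem_Icc.2 hT) ht ht.1
    simp only [hE0 hT, mul_zero] at h1
    have h2 := Real.exp_pos (-(6 * K0) * t)
    have h3 := hEnonneg t
    nlinarith [mul_nonneg h2.le h3]
  have hz := eq_zero_of_integral (slice_cont (g := W) cW ht)
    (fun x => Finset.sum_nonneg fun i _ => sq_nonneg _) hEt
  have hWx : W t x = 0 := by
    rw [← periodic_reduce (W t) (fun x j => by
      simp only [W, hu.pu t ht, hv.pu t ht]) x]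
    exact hz _ (fract_mem_cube x)
  funext i
  have h1 := (Finset.sum_eq_zero_iff_of_nonneg (fun i _ => sq_nonneg (u t x i - v t x i))).1 hWx i
    (Finset.mem_univ i)
  exact sub_eq_zero.1 (pow_eq_zero_iff (two_ne_zero)|>.1 h1)

/-- a function on the torus with zero partial derivatives is constant -/
theorem const_of_partials {r : E3 → ℝ}
    (hd : ∀ x j, HasDerivAt (fun s => r (Function.update x j s)) 0 (x j)) (x : E3) :
    r x = r 0 := by
  have h : ∀ (y : E3) (j : Fin 3) (s : ℝ), r (Function.update y j s) = r y := by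
    intro y j s
    have hdiff : Differentiable ℝ fun s => r (Function.update y j s) := by
      intro s
      have := hd (Function.update y j s) j
      simp only [Function.update_idem, Function.update_self] at this
      exact this.differentiableAt
    have hder : ∀ s, deriv (fun s => r (Function.update y j s)) s = 0 := by
      intro s
      have := hd (Function.update y j s) j
      simp only [Function.update_idem, Function.update_self] at this
      exact this.deriv
    have := is_const_of_deriv_eq_zero hdiff hder s (y j)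
    simpa using this
  have h2 : (0 : E3) = Function.update (Function.update (Function.update x 0 0) 1 0) 2 0 := by
    funext i
    fin_cases i <;> simp
  rw [h2, h, h, h]

/-- uniqueness of classical solutions on `[0,T]` -/
theorem RawSol.unique {ν T : ℝ} (hν : 0 ≤ ν) (hT : 0 < T) {f : ℝ → E3 → E3}
    {u : ℝ → E3 → E3} {p : ℝ → E3 → ℝ} {ut : ℝ → E3 → E3} {ux uxx : Fin 3 → ℝ → E3 → E3}
    {px : Fin 3 → ℝ → E3 → ℝ} (hu : RawSol ν T f u p ut ux uxx px)
    {v : ℝ → E3 → E3} {q : ℝ → E3 → ℝ} {vt : ℝ → E3 → E3} {vx vxx : Fin 3 → ℝ → E3 → E3}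
    {qx : Fin 3 → ℝ → E3 → ℝ} (hv : RawSol ν T f v q vt vx vxx qx) :
    ∀ t ∈ Icc 0 T, ∀ x, u t x = v t x ∧ p t x = q t x := by
  have hvel := hu.velocity_unique hν hv
  intro t ht x
  refine ⟨hvel t ht x, ?_⟩
  have e1 : ∀ x i, ut t x i = vt t x i := by
    intro x i
    have h1 := hu.dt t ht x i
    have h2 := hv.dt t ht x i
    have h3 : HasDerivWithinAt (fun s => v s x i) (ut t x i) (Icc 0 T) t :=
      h1.congr (fun s hs => by rw [hvel s hs x]) (by rw [hvel t ht x])
    exact (uniqueDiffOn_Icc hT t ht).eq_deriv _ h3 h2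
  have e2 : ∀ x i j, ux j t x i = vx j t x i := by
    intro x i j
    have h1 := hu.dx t ht x i j
    simp only [hvel t ht] at h1
    exact h1.unique (hv.dx t ht x i j)
  have e3 : ∀ x i j, uxx j t x i = vxx j t x i := by
    intro x i j
    have h1 := hu.dxx t ht x i j
    simp only [e2] at h1
    exact h1.unique (hv.dxx t ht x i j)
  have e4 : ∀ x i, px i t x = qx i t x := by
    intro x i
    have h1 := hu.eq t ht x i
    have h2 := hv.eq t ht x i
    simp only [hvel t ht, e1, e2, e3] at h1
    linarith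
  have hconst : ∀ x, p t x - q t x = p t 0 - q t 0 := by
    intro x
    refine const_of_partials (r := fun x => p t x - q t x) (fun x j => ?_) x
    have := (hu.dp t ht x j).sub (hv.dp t ht x j)
    rw [e4, sub_self] at this
    exact this
  have hint : ∫ x in cube, (p t x - q t x) = 0 := by
    rw [integral_sub (integrable_cube (slice_cont (g := p) hu.cp ht))
      (integrable_cube (slice_cont (g := q) hv.cp ht)), hu.mean t ht, hv.mean t ht, sub_zero]
  simp only [hconst] at hint
  rw [setIntegral_const] at hint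
  have hvol : volume.real cube = 1 := by
    rw [Measure.real, cube, Real.volume_Icc_pi]
    simp
  rw [hvol, one_smul] at hint
  linarith [hconst x]

end Vale.Agent.P113.H936
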