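import Vale.Agent.P113.Defs
import Vale.Agent.P113.H936.Uniq

/-!
# P113 (helper936): uniqueness of classical solutions
-/

open MeasureTheory Set

namespace Vale.Agent.P113.H936

theorem hasDerivAt_of_hasPd {j : Fin 3} {g : (Fin 3 → ℝ) → ℝ} (h : HasPd j g) (x : Fin 3 → ℝ) :
    HasDerivAt (fun s => g (Function.update x j s)) (pd j g x) (x j) := by
  have h1 : HasDerivAt (fun t : ℝ => g (x + t • Pi.single j (1 : ℝ))) (pd j g x) 0 :=
    (h x).hasLineDerivAt
  have h2 : HasDerivAt (fun s : ℝ => s - x j) 1 (x j) := (hasDerivAt_id _).sub_const _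
  have h3 : HasDerivAt (fun t : ℝ => g (x + t • Pi.single j (1 : ℝ))) (pd j g x) (x j - x j) := by
    rwa [sub_self]
  have h4 := HasDerivAt.scomp (h := fun s : ℝ => s - x j) (x j) h3 h2
  rw [one_smul] at h4
  refine h4.congr_of_eventuallyEq (Filter.Eventually.of_forall fun s => ?_)
  have h5 : Function.update x j s = x + (s - x j) • Pi.single j (1 : ℝ) := by
    funext i
    by_cases hi : i = j
    · subst hi
      simp
    · simp [hi]
  simp only [Function.comp_apply]
  rw [h5]

theorem isPer_update {g : (Fin 3 → ℝ) → ℝ} (h : IsPer g) (x : Fin 3 → ℝ) (j : Fin 3) :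
    g (Function.update x j (x j + 1)) = g x := by
  rw [← h x (Pi.single j 1)]
  congr 1
  funext i
  by_cases hi : i = j
  · subst hi
    simp
  · simp [hi]

theorem rawSol_of_classical {ν T : ℝ} {f : ℝ → (Fin 3 → ℝ) → Fin 3 → ℝ}
    {u : ℝ → (Fin 3 → ℝ) → Fin 3 → ℝ} {p : ℝ → (Fin 3 → ℝ) → ℝ}
    (h : IsClassicalSolution ν T f u p) :
    RawSol ν T f u p (fun t x i => derivWithin (fun s => u s x i) (Icc 0 T) t)
      (fun j t x i => pd j (fun y => u t y i) x)
      (fun j t x i => pd j (pd j fun y => u t y i) x) (fun j t x => pd j (p t) x) where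
  cu := h.cont_u
  cut := h.cont_t
  cux := fun j i => h.cont_x i j
  cuxx := fun j i => h.cont_xx i j j
  cp := h.cont_p
  cpx := h.cont_dp
  dt := fun t ht x i => (h.diff_t i x t ht).hasDerivWithinAt
  dx := fun t ht x i j => hasDerivAt_of_hasPd (g := fun y => u t y i) (h.diff_x t ht i j) x
  dxx := fun t ht x i j => hasDerivAt_of_hasPd (g := pd j fun y => u t y i) (h.diff_xx t ht i j j) x
  dp := fun t ht x j => hasDerivAt_of_hasPd (h.diff_p t ht j) x
  pu := fun t ht x i j => isPer_update (h.per_u t ht i) x j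
  pp := fun t ht x j => isPer_update (h.per_p t ht) x j
  mean := h.mean_p
  div := h.div_free
  eq := h.momentum
  init := fun x => funext fun i => h.init x i

end Vale.Agent.P113.H936

namespace Vale.Agent.P113

/-- Uniqueness of classical solutions. -/
theorem classical_unique (ν T : ℝ) (hν : 0 < ν) (hT : 0 < T) (f : ℝ → (Fin 3 → ℝ) → Fin 3 → ℝ)
    (u v : ℝ → (Fin 3 → ℝ) → Fin 3 → ℝ) (p q : ℝ → (Fin 3 → ℝ) → ℝ)
    (h1 : IsClassicalSolution ν T f u p) (h2 : IsClassicalSolution ν T f v q) :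
    ∀ t ∈ Set.Icc 0 T, ∀ x, v t x = u t x ∧ q t x = p t x :=
  (H936.rawSol_of_classical h2).unique hν.le hT (H936.rawSol_of_classical h1)

end Vale.Agent.P113
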